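import Vale.Agent.P247.H74.K2D.K2d
import Vale.Agent.P247.H74.K2A.K2A

/-! # P247, package K2D: compactness of the space of tori -/

open scoped ContDiff Topology
open Set MeasureTheory Filter Metric

set_option linter.unusedSectionVars false

noncomputable section

namespace Vale.Agent.P247.H74.K2D

open K2A

/-! ## Consequences of smooth convergence -/

theorem TendSmooth.comp {fn : ℕ → P2 → R4} {f : P2 → R4} (h : TendSmooth fn f) {k : ℕ → ℕ}
    (hk : Tendsto k atTop atTop) : TendSmooth (fun n => fn (k n)) f := by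
  intro j
  rw [Metric.tendstoUniformly_iff]
  intro ε hε
  exact hk.eventually ((Metric.tendstoUniformly_iff.1 (h j)) ε hε)

theorem TendSmooth.unif {fn : ℕ → P2 → R4} {f : P2 → R4} (h : TendSmooth fn f) {ε : ℝ}
    (hε : 0 < ε) : ∀ᶠ n in atTop, ∀ p, ‖f p - fn n p‖ ≤ ε := by
  filter_upwards [(Metric.tendstoUniformly_iff.1 (h 0)) ε hε] with n hn p
  have h1 := hn p
  rw [dist_eq_norm] at h1
  have h2 : ‖iteratedFDeriv ℝ 0 f p - iteratedFDeriv ℝ 0 (fn n) p‖ = ‖f p - fn n p‖ := by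
    have h3 : iteratedFDeriv ℝ 0 f p - iteratedFDeriv ℝ 0 (fn n) p =
        (continuousMultilinearCurryFin0 ℝ P2 R4).symm (f p - fn n p) := by
      rw [map_sub]
      rfl
    rw [h3, LinearIsometryEquiv.norm_map]
  rw [← h2]
  exact h1.le

theorem TendSmooth.tendsto {fn : ℕ → P2 → R4} {f : P2 → R4} (h : TendSmooth fn f) (p : P2) :
    Tendsto (fun n => fn n p) atTop (𝓝 (f p)) := by
  have h2 := (h 0).tendsto_at p
  have h3 : Continuous fun L : ME 0 => L.curry0 :=
    (continuousMultilinearCurryFin0 ℝ P2 R4).continuous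
  exact (h3.tendsto _).comp h2

theorem TendSmooth.fderiv {fn : ℕ → P2 → R4} {f : P2 → R4} (h : TendSmooth fn f) (p v : P2) :
    Tendsto (fun n => fderiv ℝ (fn n) p v) atTop (𝓝 (fderiv ℝ f p v)) := by
  have h2 := (h 1).tendsto_at p
  have h3 : Continuous fun L : ME 1 => L (fun _ => v) := continuous_eval_const _
  have h4 := (h3.tendsto _).comp h2
  simp only [Function.comp_def, iteratedFDeriv_one_apply] at h4
  exact h4

/-- limits of tori are tori -/
theorem JT_limit {D : Data} {fn : ℕ → P2 → R4} {τn : ℕ → ℂ} {f : P2 → R4} {τ : ℂ}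
    (hj : ∀ n, JT D (fn n) (τn n)) (hf : ContDiff ℝ ∞ f) (hp : Per f) (h : TendSmooth fn f)
    (hτ : Tendsto τn atTop (𝓝 τ)) (him : 0 < τ.im) : JT D f τ := by
  refine ⟨hf, hp, him, fun p => ?_⟩
  have hfd : Differentiable ℝ f := hf.differentiable (by simp)
  have hfnd : ∀ n, Differentiable ℝ (fn n) := fun n => (hj n).smooth.differentiable (by simp)
  have h1 : Tendsto (fun n => ds (phi (fn n)) p) atTop (𝓝 (ds (phi f) p)) := by
    rw [ds_phi (hfd p)]
    have : (fun n => ds (phi (fn n)) p) = fun n => e 2 + ds (fn n) p := by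
      funext n
      exact ds_phi (hfnd n p)
    rw [this]
    exact (TendSmooth.fderiv h p (1, 0)).const_add _
  have h2 : Tendsto (fun n => dt (phi (fn n)) p) atTop (𝓝 (dt (phi f) p)) := by
    rw [dt_phi (hfd p)]
    have : (fun n => dt (phi (fn n)) p) = fun n => e 3 + dt (fn n) p := by
      funext n
      exact dt_phi (hfnd n p)
    rw [this]
    exact (TendSmooth.fderiv h p (0, 1)).const_add _
  have h3 : Tendsto (fun n => phi (fn n) p) atTop (𝓝 (phi f p)) :=
    (TendSmooth.tendsto h p).const_add _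
  have h4 : Tendsto (fun n => D.J (phi (fn n) p) (ds (phi (fn n)) p)) atTop
      (𝓝 (D.J (phi f p) (ds (phi f) p))) := by
    have h3' : Tendsto (fun n => D.J (phi (fn n) p)) atTop (𝓝 (D.J (phi f p))) :=
      (D.J_smooth.continuous.tendsto _).comp h3
    have h5 : Continuous fun q : (R4 →L[ℝ] R4) × R4 => q.1 q.2 :=
      isBoundedBilinearMap_apply.continuous
    exact (h5.tendsto (D.J (phi f p), ds (phi f) p)).comp (h3'.prodMk_nhds h1)
  have hre : Tendsto (fun n => (τn n).re) atTop (𝓝 τ.re) :=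
    (Complex.continuous_re.tendsto τ).comp hτ
  have himm : Tendsto (fun n => (τn n).im) atTop (𝓝 τ.im) :=
    (Complex.continuous_im.tendsto τ).comp hτ
  have h5 := (hre.smul h1).add (himm.smul h4)
  refine tendsto_nhds_unique h2 (h5.congr fun n => ?_)
  exact ((hj n).eq p).symm

theorem Cen_limit {fn : ℕ → P2 → R4} {f : P2 → R4} (hc : ∀ n, Cen (fn n))
    (hfn : ∀ n, Continuous (fn n)) (hf : Continuous f) (h : TendSmooth fn f) : Cen f := by
  have key : ∀ i : Fin 4, (∀ n, mean (fun p => fn n p i) = 0) → mean (fun p => f p i) = 0 := by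
    intro i hi
    rw [← norm_eq_zero]
    refine le_antisymm (le_of_forall_pos_le_add fun ε hε => ?_) (norm_nonneg _)
    obtain ⟨n, hn⟩ := (TendSmooth.unif h hε).exists
    have c1 : Continuous fun p => f p i := (continuous_apply i).comp hf
    have c2 : Continuous fun p => fn n p i := (continuous_apply i).comp (hfn n)
    have h1 : mean (fun p => f p i) = mean (fun p => f p i - fn n p i) := by
      rw [mean_sub c1 c2, hi n, sub_zero]
    rw [h1, zero_add]
    refine norm_mean_le fun p _ => ?_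
    exact (norm_le_pi_norm (f p - fn n p) i).trans (hn p)
  exact ⟨key 2 fun n => (hc n).1, key 3 fun n => (hc n).2⟩

/-! ## The mean is controlled by the flux -/

theorem exists_mean_bound (D : Data) : ∃ K : ℝ, 0 ≤ K ∧ ∀ v : R4, v 2 = 0 → v 3 = 0 →
    ‖v‖ ≤ K * ‖Lk D v‖ := by
  set a := (D.η 0).κ (e 2) (e 0) with ha
  set b := (D.η 0).κ (e 2) (e 1) with hb
  set c := (D.η 0).κ (e 3) (e 0) with hc
  set d := (D.η 0).κ (e 3) (e 1) with hd
  have hdet : a * d - b * c ≠ 0 := by
    have h1 := D.kne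
    rw [← ha, ← hb, ← hc, ← hd] at h1
    exact h1
  have hdp : 0 < |a * d - b * c| := abs_pos.2 hdet
  refine ⟨(|a| + |b| + |c| + |d|) / |a * d - b * c|, by positivity, fun v h2 h3 => ?_⟩
  have hv : v = v 0 • e 0 + v 1 • e 1 := by
    funext i
    fin_cases i
    · simp [e]
    · simp [e]
    · simpa [e] using h2
    · simpa [e] using h3
  set y := Lk D v with hy
  have y1 : y.1 = -(a * v 0 + b * v 1) := by
    rw [hy, Lk]
    conv_lhs => rw [hv]
    simp only [map_add, map_smul, smul_eq_mul]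
    rw [← ha, ← hb]
    ring
  have y2 : y.2 = -(c * v 0 + d * v 1) := by
    rw [hy, Lk]
    conv_lhs => rw [hv]
    simp only [map_add, map_smul, smul_eq_mul]
    rw [← hc, ← hd]
    ring
  have n1 : |y.1| ≤ ‖y‖ := norm_fst_le y
  have n2 : |y.2| ≤ ‖y‖ := norm_snd_le y
  have hyn : 0 ≤ ‖y‖ := norm_nonneg y
  have v0 : (a * d - b * c) * v 0 = -(d * y.1 - b * y.2) := by
    rw [y1, y2]
    ring
  have v1 : (a * d - b * c) * v 1 = -(a * y.2 - c * y.1) := by
    rw [y1, y2]
    ring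
  have b0 : |v 0| ≤ (|a| + |b| + |c| + |d|) / |a * d - b * c| * ‖y‖ := by
    rw [div_mul_eq_mul_div, le_div_iff₀ hdp, mul_comm, ← abs_mul, v0, abs_neg]
    calc |d * y.1 - b * y.2| ≤ |d * y.1| + |b * y.2| := abs_sub _ _
      _ = |d| * |y.1| + |b| * |y.2| := by rw [abs_mul, abs_mul]
      _ ≤ |d| * ‖y‖ + |b| * ‖y‖ := by gcongr
      _ ≤ (|a| + |b| + |c| + |d|) * ‖y‖ := by
        have := mul_nonneg (abs_nonneg a) hyn
        have := mul_nonneg (abs_nonneg c) hyn
        linarith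
  have b1 : |v 1| ≤ (|a| + |b| + |c| + |d|) / |a * d - b * c| * ‖y‖ := by
    rw [div_mul_eq_mul_div, le_div_iff₀ hdp, mul_comm, ← abs_mul, v1, abs_neg]
    calc |a * y.2 - c * y.1| ≤ |a * y.2| + |c * y.1| := abs_sub _ _
      _ = |a| * |y.2| + |c| * |y.1| := by rw [abs_mul, abs_mul]
      _ ≤ |a| * ‖y‖ + |c| * ‖y‖ := by gcongr
      _ ≤ (|a| + |b| + |c| + |d|) * ‖y‖ := by
        have := mul_nonneg (abs_nonneg b) hyn
        have := mul_nonneg (abs_nonneg d) hyn
        linarith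
  have hpos : 0 ≤ (|a| + |b| + |c| + |d|) / |a * d - b * c| * ‖y‖ := by positivity
  refine (pi_norm_le_iff_of_nonneg hpos).2 fun i => ?_
  fin_cases i
  · exact b0
  · exact b1
  · show ‖v 2‖ ≤ _
    rw [h2, norm_zero]
    exact hpos
  · show ‖v 3‖ ≤ _
    rw [h3, norm_zero]
    exact hpos

/-- **K2** -/
theorem K2 (hg : K2g_statement) (hc : K2c_statement) : K2_statement := by
  intro D fn τn hj hcen ⟨C₀, hC₀⟩
  obtain ⟨C₁, hC₁, h1⟩ := K2a D
  obtain ⟨C₂, h2⟩ := PB hg D
  obtain ⟨K, hK, h3⟩ := exists_mean_bound D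
  have hfc : ∀ n, Continuous (fn n) := fun n => (hj n).smooth.continuous
  have hmean : ∀ n, ‖mean (fn n)‖ ≤ K * (C₀ + C₂) := by
    intro n
    have e1 : (mean (fn n)) 2 = 0 := by
      have := mean_clm (ContinuousLinearMap.proj (R := ℝ) (φ := fun _ : Fin 4 => ℝ) 2) (hfc n)
      simp only [ContinuousLinearMap.proj_apply] at this
      rw [← this]
      exact (hcen n).1
    have e2 : (mean (fn n)) 3 = 0 := by
      have := mean_clm (ContinuousLinearMap.proj (R := ℝ) (φ := fun _ : Fin 4 => ℝ) 3) (hfc n)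
      simp only [ContinuousLinearMap.proj_apply] at this
      rw [← this]
      exact (hcen n).2
    refine (h3 _ e1 e2).trans (mul_le_mul_of_nonneg_left ?_ hK)
    have e3 := (h2 (fn n) (τn n) (hj n)).2
    calc ‖Lk D (mean (fn n))‖ = ‖flux D (fn n) - (flux D (fn n) - Lk D (mean (fn n)))‖ := by
          rw [sub_sub_cancel]
      _ ≤ ‖flux D (fn n)‖ + ‖flux D (fn n) - Lk D (mean (fn n))‖ := norm_sub_le _ _
      _ ≤ C₀ + C₂ := add_le_add (hC₀ n) e3
  have hsup : ∀ n p, ‖fn n p‖ ≤ C₂ + K * (C₀ + C₂) := by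
    intro n p
    calc ‖fn n p‖ = ‖(fn n p - mean (fn n)) + mean (fn n)‖ := by rw [sub_add_cancel]
      _ ≤ ‖fn n p - mean (fn n)‖ + ‖mean (fn n)‖ := norm_add_le _ _
      _ ≤ _ := add_le_add ((h2 _ _ (hj n)).1 p) (hmean n)
  obtain ⟨f, hfs, hfp, φ, hφ, hconv⟩ := K2d fn (fun n => (hj n).smooth) (fun n => (hj n).per)
    (by
      intro k
      rcases Nat.eq_zero_or_pos k with rfl | hk
      · refine ⟨C₂ + K * (C₀ + C₂), fun n p => ?_⟩
        rw [norm_iteratedFDeriv_zero]
        exact hsup n p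
      · obtain ⟨C, hC⟩ := hc D k hk
        exact ⟨C, fun n p => hC _ _ (hj n) p⟩)
  obtain ⟨τ, -, ψ, hψ, hτ⟩ := (isCompact_closedBall (0 : ℂ) C₁).tendsto_subseq
    (x := fun n => τn (φ n)) (fun n => by
      rw [mem_closedBall_zero_iff]
      exact (h1 _ _ (hj _)).2.1)
  have him : 1 / C₁ ≤ τ.im := by
    have h4 : Tendsto (fun n => (τn (φ (ψ n))).im) atTop (𝓝 τ.im) :=
      (Complex.continuous_im.tendsto τ).comp hτ
    exact ge_of_tendsto h4 (Eventually.of_forall fun n => (h1 _ _ (hj _)).1)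
  have him0 : 0 < τ.im := lt_of_lt_of_le (by positivity) him
  have hconv' : TendSmooth (fun n => fn (φ (ψ n))) f := TendSmooth.comp hconv hψ.tendsto_atTop
  refine ⟨f, τ, fun n => φ (ψ n), hφ.comp hψ, ?_, ?_, hconv', hτ⟩
  · exact JT_limit (fun n => hj (φ (ψ n))) hfs hfp hconv' hτ him0
  · exact Cen_limit (fun n => hcen (φ (ψ n))) (fun n => hfc _) hfs.continuous hconv'

end Vale.Agent.P247.H74.K2D
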