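import Vale.Agent.P247.H74.K2A.Per

/-! # P247, package K2D: extraction of smoothly convergent subsequences -/

open scoped ContDiff Topology BoundedContinuousFunction
open Set MeasureTheory Filter Metric

set_option linter.unusedSectionVars false

noncomputable section

namespace Vale.Agent.P247.H74.K2D

open K2A

/-- the space of derivatives of order `k` -/
abbrev ME (k : ℕ) : Type := P2 [×k]→L[ℝ] R4

instance instFin (k : ℕ) : FiniteDimensional ℝ (ME k) :=
  FiniteDimensional.of_injective
    (ContinuousMultilinearMap.toMultilinearMapLinear (R' := ℝ) (A := ℝ)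
      (M₁ := fun _ : Fin k => P2) (M₂ := R4))
    ContinuousMultilinearMap.toMultilinearMap_injective

instance instProper (k : ℕ) : ProperSpace (ME k) := FiniteDimensional.proper_real _

/-- the unit square -/
abbrev Sq : Type := Icc (0 : P2) 1

instance : CompactSpace Sq := isCompact_iff_compactSpace.1 isCompact_Icc

/-- the Ascoli set -/
def AS (k : ℕ) (C L : ℝ) : Set (Sq →ᵇ ME k) :=
  {g | (∀ x, ‖g x‖ ≤ C) ∧ ∀ x y, ‖g x - g y‖ ≤ L * dist x y}

theorem isCompact_AS (k : ℕ) (C L : ℝ) : IsCompact (AS k C L) := by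
  refine BoundedContinuousFunction.arzela_ascoli₂ (closedBall (0 : ME k) C)
    (isCompact_closedBall _ _) _ ?_ ?_ ?_
  · have h1 : AS k C L = (⋂ x, {g : Sq →ᵇ ME k | ‖g x‖ ≤ C}) ∩
        ⋂ x, ⋂ y, {g : Sq →ᵇ ME k | ‖g x - g y‖ ≤ L * dist x y} := by
      ext g
      constructor
      · rintro ⟨h1, h2⟩
        exact ⟨mem_iInter.2 h1, mem_iInter.2 fun x => mem_iInter.2 (h2 x)⟩
      · rintro ⟨h1, h2⟩
        exact ⟨fun x => mem_iInter.1 h1 x, fun x y => mem_iInter.1 (mem_iInter.1 h2 x) y⟩
    rw [h1]
    have hc : ∀ x : Sq, Continuous fun g : Sq →ᵇ ME k => g x := fun x =>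
      continuous_eval_const x
    refine IsClosed.inter (isClosed_iInter fun x => ?_)
      (isClosed_iInter fun x => isClosed_iInter fun y => ?_)
    · exact isClosed_le (hc x).norm continuous_const
    · exact isClosed_le ((hc x).sub (hc y)).norm continuous_const
  · intro f x hf
    rw [mem_closedBall_zero_iff]
    exact hf.1 x
  · intro x₀
    rw [Metric.equicontinuousAt_iff_pair]
    intro ε hε
    have hL : 0 < ε / (2 * (|L| + 1)) := by positivity
    refine ⟨ball x₀ (ε / (2 * (|L| + 1))), ball_mem_nhds _ hL, fun x hx x' hx' g => ?_⟩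
    rw [dist_eq_norm]
    have h1 := g.2.2 x x'
    rw [mem_ball] at hx hx'
    have h2 : dist x x' < ε / (|L| + 1) := by
      have h3 := dist_triangle_right x x' x₀
      have h4 : ε / (2 * (|L| + 1)) + ε / (2 * (|L| + 1)) = ε / (|L| + 1) := by
        field_simp
        norm_num
      linarith
    have h5 : L * dist x x' ≤ |L| * dist x x' :=
      mul_le_mul_of_nonneg_right (le_abs_self L) dist_nonneg
    have h6 : |L| * dist x x' ≤ (|L| + 1) * dist x x' := by
      have : 0 ≤ dist x x' := dist_nonneg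
      linarith
    have h7 : (|L| + 1) * dist x x' < ε := by
      have h8 : 0 < |L| + 1 := by positivity
      have h9 := mul_lt_mul_of_pos_left h2 h8
      have h10 : (|L| + 1) * (ε / (|L| + 1)) = ε := by field_simp
      linarith
    exact lt_of_le_of_lt (h1.trans (h5.trans h6)) h7

/-- the translate of `p` in the unit square -/
def red (p : P2) : P2 := (p.1 + ((-⌊p.1⌋ : ℤ) : ℝ), p.2 + ((-⌊p.2⌋ : ℤ) : ℝ))

theorem red_mem (p : P2) : red p ∈ Icc (0 : P2) 1 := by
  refine ⟨⟨?_, ?_⟩, ⟨?_, ?_⟩⟩
  · have := Int.floor_le p.1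
    simp only [Prod.fst_zero, red]
    push_cast
    linarith
  · have := Int.floor_le p.2
    simp only [Prod.snd_zero, red]
    push_cast
    linarith
  · have := (Int.lt_floor_add_one p.1).le
    simp only [Prod.fst_one, red]
    push_cast
    linarith
  · have := (Int.lt_floor_add_one p.2).le
    simp only [Prod.snd_one, red]
    push_cast
    linarith

theorem per_iteratedFDeriv {f : P2 → R4} (hf : Per f) (k : ℕ) (m n : ℤ) (p : P2) :
    iteratedFDeriv ℝ k f (p.1 + m, p.2 + n) = iteratedFDeriv ℝ k f p := by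
  have h1 : (fun x : P2 => f (x + ((m : ℝ), (n : ℝ)))) = f := by
    funext x
    exact hf m n x
  have h2 := iteratedFDeriv_comp_add_right (𝕜 := ℝ) (f := f) k (((m : ℝ), (n : ℝ))) p
  rw [h1] at h2
  exact h2.symm

theorem iteratedFDeriv_red {f : P2 → R4} (hf : Per f) (k : ℕ) (p : P2) :
    iteratedFDeriv ℝ k f (red p) = iteratedFDeriv ℝ k f p :=
  per_iteratedFDeriv hf k _ _ p

theorem K2d : K2d_statement := by
  intro fn hs hp hb
  choose C hC using hb
  -- the sequence in the product of the Ascoli sets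
  have hcont : ∀ n k, Continuous (iteratedFDeriv ℝ k (fn n)) := fun n k =>
    (hs n).continuous_iteratedFDeriv (by exact WithTop.coe_le_coe.2 le_top)
  let x : ℕ → ∀ k : ℕ, Sq →ᵇ ME k := fun n k =>
    BoundedContinuousFunction.mkOfCompact
      ⟨fun q : Sq => iteratedFDeriv ℝ k (fn n) q, (hcont n k).comp continuous_subtype_val⟩
  have hxap : ∀ n k (q : Sq), x n k q = iteratedFDeriv ℝ k (fn n) q := fun n k q => rfl
  have hlip : ∀ n k (a b : P2), ‖iteratedFDeriv ℝ k (fn n) a - iteratedFDeriv ℝ k (fn n) b‖ ≤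
      C (k + 1) * ‖a - b‖ := by
    intro n k a b
    refine (convex_univ (𝕜 := ℝ) (E := P2)).norm_image_sub_le_of_norm_fderiv_le
      (𝕜 := ℝ) (x := b) (y := a) (fun z _ => ?_) (fun z _ => ?_) (mem_univ _) (mem_univ _)
    · exact ((hs n).differentiable_iteratedFDeriv (m := k) (by
        exact WithTop.coe_lt_coe.2 (WithTop.coe_lt_top _))) z
    · rw [norm_fderiv_iteratedFDeriv]
      exact hC (k + 1) n z
  have hxmem : ∀ n, x n ∈ pi univ fun k => AS k (C k) (C (k + 1)) := by
    intro n k _
    refine ⟨fun q => hC k n q, fun q q' => ?_⟩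
    rw [hxap, hxap, Subtype.dist_eq, dist_eq_norm]
    exact hlip n k q q'
  have hcomp : IsCompact (pi univ fun k => AS k (C k) (C (k + 1))) :=
    isCompact_univ_pi fun k => isCompact_AS k _ _
  obtain ⟨a, -, φ, hφ, hlim⟩ := hcomp.isSeqCompact hxmem
  -- uniform convergence on the square
  have hunif : ∀ k, TendstoUniformly (fun n (q : Sq) => iteratedFDeriv ℝ k (fn (φ n)) q) (a k)
      atTop := by
    intro k
    have h1 : Tendsto (fun n => x (φ n) k) atTop (𝓝 (a k)) := (tendsto_pi_nhds.1 hlim) k
    exact BoundedContinuousFunction.tendsto_iff_tendstoUniformly.1 h1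
  -- the limits on the plane
  let g : P2 → FormalMultilinearSeries ℝ P2 R4 := fun p k => a k ⟨red p, red_mem p⟩
  have hunif' : ∀ k, TendstoUniformly (fun n p => iteratedFDeriv ℝ k (fn (φ n)) p)
      (fun p => g p k) atTop := by
    intro k
    rw [Metric.tendstoUniformly_iff]
    intro ε hε
    filter_upwards [(Metric.tendstoUniformly_iff.1 (hunif k)) ε hε] with n hn p
    have h1 := hn ⟨red p, red_mem p⟩
    simp only at h1
    rw [iteratedFDeriv_red (hp _)] at h1
    exact h1
  have hgcont : ∀ k, Continuous fun p => g p k := fun k =>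
    (hunif' k).continuous (Eventually.frequently (Eventually.of_forall fun n => hcont _ k))
  have hder : ∀ k p, HasFDerivAt (fun p => g p k) (g p (k + 1)).curryLeft p := by
    intro k
    refine hasFDerivAt_of_tendstoUniformly (l := atTop)
      (f := fun n p => iteratedFDeriv ℝ k (fn (φ n)) p)
      (f' := fun n p => (iteratedFDeriv ℝ (k + 1) (fn (φ n)) p).curryLeft) ?_ ?_ ?_
    · have h1 := (continuousMultilinearCurryLeftEquiv ℝ (fun _ : Fin (k + 1) => P2)
        R4).isometry.uniformContinuous
      exact h1.comp_tendstoUniformly (hunif' (k + 1))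
    · intro n p
      have h1 : HasFTaylorSeriesUpTo ∞ (fn (φ n)) (ftaylorSeries ℝ (fn (φ n))) :=
        (hs (φ n)).ftaylorSeries
      exact h1.fderiv k (by exact WithTop.coe_lt_coe.2 (WithTop.coe_lt_top _)) p
    · intro p
      exact (hunif' k).tendsto_at p
  -- the limit function
  let f : P2 → R4 := fun p => (g p 0).curry0
  have htay : HasFTaylorSeriesUpTo ∞ f g :=
    ⟨fun p => rfl, fun m _ p => hder m p, fun m _ => hgcont m⟩
  have hit : ∀ k, iteratedFDeriv ℝ k f = fun p => g p k := fun k => by
    funext p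
    exact (htay.eq_iteratedFDeriv (by exact WithTop.coe_le_coe.2 le_top) p).symm
  refine ⟨f, HasFTaylorSeriesUpTo.contDiff htay, ?_, φ, hφ, fun k => ?_⟩
  · intro m n p
    have h1 : ∀ q, Tendsto (fun i => fn (φ i) q) atTop (𝓝 (f q)) := by
      intro q
      have h2 := (hunif' 0).tendsto_at q
      have h3 : Continuous fun L : ME 0 => L.curry0 :=
        (continuousMultilinearCurryFin0 ℝ P2 R4).continuous
      have h4 := (h3.tendsto _).comp h2
      exact h4
    have h2 : (fun i => fn (φ i) (p.1 + m, p.2 + n)) = fun i => fn (φ i) p := by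
      funext i
      exact hp _ m n p
    exact tendsto_nhds_unique (h2 ▸ h1 (p.1 + m, p.2 + n)) (h1 p)
  · rw [hit k]
    exact hunif' k

end Vale.Agent.P247.H74.K2D
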